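import Crest.Agent.N250.Wt.Gd

/-!
# Row 250 (helper73): polynomial and sub-Gaussian growth imply Gaussian integrability
-/

set_option autoImplicit false
set_option linter.unusedSectionVars false
open MeasureTheory Set Filter Topology
open scoped ContDiff ENNReal NNReal

noncomputable section

namespace Crest.Agent.N250

open Crest.Agent.N222

namespace WS.Geo

variable {X : Type} [TopologicalSpace X] [MeasurableSpace X] (G : Geo X)
  {F F' : Type} [NormedAddCommGroup F] [NormedAddCommGroup F']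

theorem pow_le_exp (b : ℕ) {δ : ℝ} (hδ : 0 < δ) :
    ∃ C : ℝ, 0 < C ∧ ∀ t : ℝ, 0 ≤ t → (1 + t) ^ b ≤ C * Real.exp (δ * t) := by
  refine ⟨b.factorial / δ ^ b * Real.exp δ, by positivity, fun t ht => ?_⟩
  have h := Real.pow_div_factorial_le_exp (δ * (1 + t)) (by positivity) b
  rw [div_le_iff₀ (by positivity), mul_pow, mul_add, mul_one, Real.exp_add] at h
  rw [div_mul_eq_mul_div, div_mul_eq_mul_div, le_div_iff₀ (by positivity)]
  linarith

/-- every Gaussian is dominated by the density `m` -/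
theorem exp_le_m {δ : ℝ} (hδ : 0 < δ) :
    ∃ C : ℝ, 0 < C ∧ ∀ p, Real.exp (-(δ * G.S.x2.1 p)) ≤ C * G.m.1 p := by
  obtain ⟨c, b, hc, h⟩ := G.m_ge
  obtain ⟨C, hC, h1⟩ := pow_le_exp b hδ
  refine ⟨C / c, by positivity, fun p => ?_⟩
  have h2 : c ≤ G.m.1 p * (C * Real.exp (δ * G.S.x2.1 p)) :=
    (h p).trans (mul_le_mul_of_nonneg_left (h1 _ (G.x2_nonneg p)) (G.m_pos p).le)
  rw [Real.exp_neg, div_mul_eq_mul_div, le_div_iff₀ hc, inv_mul_le_iff₀ (Real.exp_pos _)]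
  linarith

theorem intg_exp [BorelSpace X] {δ : ℝ} (hδ : 0 < δ) :
    Integrable (fun p => Real.exp (-(δ * G.S.x2.1 p))) G.M.mu := by
  obtain ⟨C, -, h⟩ := G.exp_le_m hδ
  refine (G.m_int.const_mul C).mono' ?_ (.of_forall fun p => ?_)
  · exact ((continuous_const.mul (G.contR _)).neg.rexp).aestronglyMeasurable
  · rw [Real.norm_of_nonneg (Real.exp_pos _).le]; exact h p

theorem intg_ga [BorelSpace X] (f : X → ℝ) :
    Integrable f G.ga ↔ Integrable (fun p => f p * Real.exp (-G.S.x2.1 p / 4)) G.M.mu := by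
  have hc : Continuous fun p => Real.exp (-G.S.x2.1 p / 4) :=
    ((G.contR _).neg.div_const 4).rexp
  rw [ga, integrable_withDensity_iff hc.measurable.ennreal_ofReal
    (.of_forall fun _ => ENNReal.ofReal_lt_top)]
  simp only [ENNReal.toReal_ofReal (Real.exp_pos _).le]

theorem intg_exp_ga [BorelSpace X] {a : ℝ} (ha : a < 1 / 4) :
    Integrable (fun p => Real.exp (a * G.S.x2.1 p)) G.ga := by
  rw [intg_ga]
  refine (G.intg_exp (δ := 1 / 4 - a) (by linarith)).congr (.of_forall fun p => ?_)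
  simp only [← Real.exp_add]
  congr 1; ring

theorem memLp_exp [BorelSpace X] {a : ℝ} (ha : a < 1 / 8) :
    MemLp (fun p => Real.exp (a * G.S.x2.1 p)) 2 G.ga := by
  have hc : Continuous fun p => Real.exp (a * G.S.x2.1 p) :=
    (continuous_const.mul (G.contR _)).rexp
  rw [memLp_two_iff_integrable_sq hc.aestronglyMeasurable]
  refine (G.intg_exp_ga (a := 2 * a) (by linarith)).congr (.of_forall fun p => ?_)
  simp only [sq, ← Real.exp_add]
  congr 1; ring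

/-- growth `exp (a |x|²)` with `a < 1/8` -/
def SubG (f : X → F) : Prop :=
  ∃ C a : ℝ, a < 1 / 8 ∧ ∀ p, ‖f p‖ ≤ C * Real.exp (a * G.S.x2.1 p)

/-- polynomial growth -/
def PG (f : X → F) : Prop := ∃ (C : ℝ) (b : ℕ), 0 ≤ C ∧ ∀ p, ‖f p‖ ≤ C * (1 + G.S.x2.1 p) ^ b

variable {G}

theorem SubG.eLp [BorelSpace X] {f : X → F} (h : G.SubG f) : eLpNorm f 2 G.ga ≠ ⊤ := by
  obtain ⟨C, a, ha, h⟩ := h
  exact ((eLpNorm_mono_real h).trans_lt ((G.memLp_exp ha).const_mul C).2).ne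

theorem SubG.memLp [BorelSpace X] {f : X → F} (h : G.SubG f) (hm : AEStronglyMeasurable f G.ga) :
    MemLp f 2 G.ga := ⟨hm, h.eLp.lt_top⟩

theorem SubG.gR [BorelSpace X] {u : G.R} (h : G.SubG u.1) : G.gR u ≠ ⊤ := h.eLp
theorem SubG.gC [BorelSpace X] {u : G.SmC} (h : G.SubG u.1) : G.gC u ≠ ⊤ := h.eLp

theorem one_le_w (p : X) : 1 ≤ 1 + G.S.x2.1 p := by linarith [G.x2_nonneg p]
theorem w_pos (p : X) : 0 < 1 + G.S.x2.1 p := by linarith [G.x2_nonneg p]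

theorem pg_of {f : X → F} {C : ℝ} {b : ℕ} (h : ∀ p, ‖f p‖ ≤ C * (1 + G.S.x2.1 p) ^ b) :
    G.PG f :=
  ⟨max C 0, b, le_max_right _ _, fun p => (h p).trans
    (mul_le_mul_of_nonneg_right (le_max_left _ _) (pow_pos (w_pos p) _).le)⟩

theorem PG.subG {f : X → F} (h : G.PG f) : G.SubG f := by
  obtain ⟨C, b, h0, h⟩ := h
  obtain ⟨K, -, hK⟩ := pow_le_exp b (δ := 1 / 16) (by norm_num)
  refine ⟨C * K, 1 / 16, by norm_num, fun p => (h p).trans ?_⟩
  rw [mul_assoc]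
  exact mul_le_mul_of_nonneg_left (hK _ (G.x2_nonneg p)) h0

theorem PG.eLp [BorelSpace X] {f : X → F} (h : G.PG f) : eLpNorm f 2 G.ga ≠ ⊤ := h.subG.eLp
theorem PG.memLp [BorelSpace X] {f : X → F} (h : G.PG f) (hm : AEStronglyMeasurable f G.ga) :
    MemLp f 2 G.ga := h.subG.memLp hm
theorem PG.gR [BorelSpace X] {u : G.R} (h : G.PG u.1) : G.gR u ≠ ⊤ := h.eLp
theorem PG.gC [BorelSpace X] {u : G.SmC} (h : G.PG u.1) : G.gC u ≠ ⊤ := h.eLp

/-- quantitative form -/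
theorem exists_eLp_le [BorelSpace X] (G : Geo X) (b : ℕ) : ∃ C : ℝ≥0, ∀ (K : ℝ) (f : X → F),
    (∀ p, ‖f p‖ ≤ K * (1 + G.S.x2.1 p) ^ b) → eLpNorm f 2 G.ga ≤ C * ‖K‖ₑ := by
  have h : eLpNorm (fun p => (1 + G.S.x2.1 p) ^ b) 2 G.ga ≠ ⊤ :=
    (pg_of (C := 1) (b := b) fun p => by
      rw [Real.norm_of_nonneg (pow_pos (w_pos p) _).le, one_mul]).eLp
  refine ⟨(eLpNorm (fun p => (1 + G.S.x2.1 p) ^ b) 2 G.ga).toNNReal, fun K f hf => ?_⟩
  rw [ENNReal.coe_toNNReal h, mul_comm, ← eLpNorm_const_smul]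
  exact eLpNorm_mono_real hf

theorem exists_gC_le [BorelSpace X] (G : Geo X) (b : ℕ) : ∃ C : ℝ≥0, ∀ (K : ℝ) (f : G.SmC),
    (∀ p, ‖f.1 p‖ ≤ K * (1 + G.S.x2.1 p) ^ b) → G.gC f ≤ C * ‖K‖ₑ := by
  obtain ⟨C, h⟩ := exists_eLp_le (F := ℂ) G b
  exact ⟨C, fun K f hf => h K f.1 hf⟩

/-! ### closure properties -/

theorem PG.mono {f : X → F} {g : X → F'} (h : G.PG g) (e : ∀ p, ‖f p‖ ≤ ‖g p‖) : G.PG f := by
  obtain ⟨C, b, h0, h⟩ := h
  exact ⟨C, b, h0, fun p => (e p).trans (h p)⟩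

theorem PG.norm {f : X → F} (h : G.PG f) : G.PG fun p => ‖f p‖ := h.mono fun _ => (norm_norm _).le

theorem PG.of_le {f : X → F} {g : X → ℝ} (h : G.PG g) (e : ∀ p, ‖f p‖ ≤ g p) : G.PG f :=
  h.mono fun p => (e p).trans (le_abs_self _)

theorem pg_bdd {f : X → F} {C : ℝ} (h : ∀ p, ‖f p‖ ≤ C) : G.PG f :=
  pg_of (C := C) (b := 0) fun p => by simpa using h p

theorem pg_const (c : F) : G.PG fun _ => c := pg_bdd fun _ => le_rfl

theorem PG.add {f g : X → F} (hf : G.PG f) (hg : G.PG g) : G.PG fun p => f p + g p := by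
  obtain ⟨C, b, h0, h⟩ := hf
  obtain ⟨C', b', h0', h'⟩ := hg
  refine pg_of (C := C + C') (b := b + b') fun p => (norm_add_le _ _).trans ?_
  have e1 := pow_le_pow_right₀ (one_le_w (G := G) p) (Nat.le_add_right b b')
  have e2 := pow_le_pow_right₀ (one_le_w (G := G) p) (Nat.le_add_left b' b)
  nlinarith [h p, h' p, mul_le_mul_of_nonneg_left e1 h0, mul_le_mul_of_nonneg_left e2 h0']

theorem PG.neg {f : X → F} (hf : G.PG f) : G.PG fun p => -f p := hf.mono fun _ => (norm_neg _).le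

theorem PG.sub {f g : X → F} (hf : G.PG f) (hg : G.PG g) : G.PG fun p => f p - g p := by
  simpa only [sub_eq_add_neg] using hf.add hg.neg

theorem pg_sum {κ : Type*} (s : Finset κ) {f : κ → X → F} (h : ∀ i ∈ s, G.PG (f i)) :
    G.PG fun p => ∑ i ∈ s, f i p := by
  classical
  induction s using Finset.induction_on with
  | empty => simpa using pg_const (G := G) (0 : F)
  | insert k s hk ih =>
    simp only [Finset.sum_insert hk]
    exact (h k (Finset.mem_insert_self _ _)).add (ih fun i hi => h i (Finset.mem_insert_of_mem hi))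

theorem PG.of_mul {F'' : Type} [NormedAddCommGroup F''] {f : X → F} {g : X → F'} {k : X → F''}
    (hf : G.PG f) (hg : G.PG g) (e : ∀ p, ‖k p‖ ≤ ‖f p‖ * ‖g p‖) : G.PG k := by
  obtain ⟨C, b, h0, h⟩ := hf
  obtain ⟨C', b', h0', h'⟩ := hg
  refine pg_of (C := C * C') (b := b + b') fun p => (e p).trans ?_
  calc _ ≤ C * (1 + G.S.x2.1 p) ^ b * (C' * (1 + G.S.x2.1 p) ^ b') :=
        mul_le_mul (h p) (h' p) (norm_nonneg _) ((norm_nonneg _).trans (h p))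
    _ = _ := by ring

theorem PG.mul {A : Type} [NormedRing A] {f g : X → A} (hf : G.PG f) (hg : G.PG g) :
    G.PG fun p => f p * g p := hf.of_mul hg fun _ => norm_mul_le _ _

theorem PG.smul {𝕜 : Type} [NormedField 𝕜] [NormedSpace 𝕜 F] {f : X → 𝕜} {g : X → F}
    (hf : G.PG f) (hg : G.PG g) : G.PG fun p => f p • g p :=
  hf.of_mul hg fun _ => (norm_smul _ _).le

theorem PG.pow {A : Type} [NormedRing A] {f : X → A} (hf : G.PG f) (k : ℕ) :
    G.PG fun p => f p ^ k := by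
  induction k with
  | zero => simpa using pg_const (G := G) (1 : A)
  | succ k ih => simpa only [pow_succ] using ih.mul hf

/-- growth only matters at infinity -/
theorem pg_of_far {f : X → F} (hc : Continuous f) {r C : ℝ} {b : ℕ}
    (h : ∀ p, r < G.S.x2.1 p → ‖f p‖ ≤ C * (1 + G.S.x2.1 p) ^ b) : G.PG f := by
  obtain ⟨K, hK⟩ := (G.prop r).exists_bound_of_continuousOn hc.continuousOn
  refine pg_of (C := max C 0 + max K 0) (b := b) fun p => ?_
  have e1 := one_le_pow₀ (one_le_w (G := G) p) (n := b)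
  have := le_max_right C 0
  have := le_max_right K 0
  by_cases hp : r < G.S.x2.1 p
  · nlinarith [h p hp, mul_le_mul_of_nonneg_right (le_max_left C 0) (zero_le_one.trans e1)]
  · nlinarith [hK p (not_lt.1 hp), le_max_left K 0]

/-- a continuous function that is dominated at infinity -/
theorem PG.of_far {f : X → F} {g : X → F'} (hg : G.PG g) (hc : Continuous f) {r : ℝ}
    (h : ∀ p, r < G.S.x2.1 p → ‖f p‖ ≤ ‖g p‖) : G.PG f := by
  obtain ⟨C, b, -, h'⟩ := hg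
  exact pg_of_far hc fun p hp => (h p hp).trans (h' p)

theorem pg_cpt {f : X → F} (hc : Continuous f) (hs : HasCompactSupport f) : G.PG f := by
  obtain ⟨C, h⟩ := hc.bounded_above_of_compact_support hs
  exact pg_bdd h

theorem pg_x2 : G.PG G.S.x2.1 := pg_of (C := 1) (b := 1) fun p => by
  rw [Real.norm_of_nonneg (G.x2_nonneg p)]; linarith

theorem x_sq_le (a : Fin 3) (p : X) : (G.S.x a).1 p ^ 2 ≤ G.S.x2.1 p := by
  have e : G.S.x2.1 p = ∑ c, (G.S.x c).1 p ^ 2 := by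
    simp only [Mov.x2, Fin.sum_univ_three, sq]; rfl
  rw [e]
  exact Finset.single_le_sum (f := fun c => (G.S.x c).1 p ^ 2) (fun _ _ => sq_nonneg _)
    (Finset.mem_univ a)

theorem pg_x (a : Fin 3) : G.PG (G.S.x a).1 := pg_of (C := 1) (b := 1) fun p => by
  have := x_sq_le (G := G) a p
  rw [Real.norm_eq_abs, abs_le]
  constructor <;> nlinarith [sq_nonneg ((G.S.x a).1 p - 1), sq_nonneg ((G.S.x a).1 p + 1),
    G.x2_nonneg p]

theorem pg_ρ : G.PG G.ρ.1 := pg_of (C := 1) (b := 1) fun p => by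
  have h1 := G.one_le p
  rw [Real.norm_of_nonneg (by linarith)]
  nlinarith [G.ρ_le p]

theorem Sy.pg {k : ℤ} {f : G.R} (h : G.Sy k f) : G.PG f.1 := by
  obtain ⟨C, h0, hC⟩ := (h.mono (Int.self_le_toNat k)).bd
  refine ((pg_const C).mul (pg_ρ.pow k.toNat)).of_le fun p => ?_
  simpa only [zpow_natCast, Real.norm_eq_abs] using hC p

theorem pg_n (a : Fin 3) : G.PG (G.S.n a).1 := (G.sy_n a).pg
theorem pg_ι : G.PG G.ι.1 := G.sy_ι.pg

/-! ### ring versions -/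

theorem PG.addR {u v : G.R} (hu : G.PG u.1) (hv : G.PG v.1) : G.PG (u + v).1 := hu.add hv
theorem PG.subR {u v : G.R} (hu : G.PG u.1) (hv : G.PG v.1) : G.PG (u - v).1 := hu.sub hv
theorem PG.negR {u : G.R} (hu : G.PG u.1) : G.PG (-u).1 := hu.neg
theorem PG.mulR {u v : G.R} (hu : G.PG u.1) (hv : G.PG v.1) : G.PG (u * v).1 := hu.mul hv
theorem PG.smulR {u : G.R} (hu : G.PG u.1) (c : ℝ) : G.PG (c • u).1 := (pg_const c).smul hu
theorem pg_algR (c : ℝ) : G.PG (algebraMap ℝ G.R c).1 := pg_const c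
theorem pg_zeroR : G.PG (0 : G.R).1 := pg_const 0
theorem pg_sumR {κ : Type*} (s : Finset κ) {f : κ → G.R} (h : ∀ i ∈ s, G.PG (f i).1) :
    G.PG (∑ i ∈ s, f i).1 :=
  Finset.sum_induction f (fun u => G.PG u.1) (fun _ _ => PG.addR) pg_zeroR h

theorem PG.addC {u v : G.SmC} (hu : G.PG u.1) (hv : G.PG v.1) : G.PG (u + v).1 := hu.add hv
theorem PG.subC {u v : G.SmC} (hu : G.PG u.1) (hv : G.PG v.1) : G.PG (u - v).1 := hu.sub hv
theorem PG.negC {u : G.SmC} (hu : G.PG u.1) : G.PG (-u).1 := hu.neg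
theorem PG.mulC {u v : G.SmC} (hu : G.PG u.1) (hv : G.PG v.1) : G.PG (u * v).1 := hu.mul hv
theorem PG.smulC {u : G.SmC} (hu : G.PG u.1) (c : ℂ) : G.PG (c • u).1 := (pg_const c).smul hu
theorem pg_algC (c : ℂ) : G.PG (algebraMap ℂ G.SmC c).1 := pg_const c
theorem pg_zeroC : G.PG (0 : G.SmC).1 := pg_const 0
theorem pg_sumC {κ : Type*} (s : Finset κ) {f : κ → G.SmC} (h : ∀ i ∈ s, G.PG (f i).1) :
    G.PG (∑ i ∈ s, f i).1 :=
  Finset.sum_induction f (fun u => G.PG u.1) (fun _ _ => PG.addC) pg_zeroC h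

theorem PG.oR {u : G.R} (hu : G.PG u.1) : G.PG (G.oR u).1 :=
  hu.mono fun p => (Complex.norm_real (u.1 p)).le
theorem PG.re {u : G.SmC} (hu : G.PG u.1) : G.PG (G.re u).1 :=
  hu.mono fun p => Complex.abs_re_le_norm (u.1 p)
theorem PG.im {u : G.SmC} (hu : G.PG u.1) : G.PG (G.im u).1 :=
  hu.mono fun p => Complex.abs_im_le_norm (u.1 p)

/-- `⟨Ω x, n⟩` has polynomial growth -/
theorem pg_rot (Ω : Fin 3 → Fin 3 → ℝ) :
    G.PG (∑ a, ∑ b, algebraMap ℝ G.R (Ω a b) * (G.S.x b * G.S.n a)).1 :=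
  pg_sumR _ fun a _ => pg_sumR _ fun b _ => (pg_algR _).mulR ((pg_x b).mulR (pg_n a))

/-! ### the spaces of `Lin.Gd` -/

section
variable [T2Space X] [SecondCountableTopology X] [BorelSpace X] {u : G.R}

theorem SubG.s2 (h : G.SubG u.1) : G.gd.S2 u.1 := G.gd_s2.2 h.gR
theorem PG.s2 (h : G.PG u.1) : G.gd.S2 u.1 := h.subG.s2

/-- `u, L u ∈ L²` gives `H¹` -/
theorem h1_of_gR (h : G.gR u ≠ ⊤) (hL : G.gR (G.S.LL u) ≠ ⊤) : G.gd.H1 u.1 :=
  (G.gd_s2.2 h).h1 (by rw [gd_L]; exact G.gd_s2.2 hL)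

theorem h1_of_gR_D (h : G.gR u ≠ ⊤) (hD : ∀ a, G.gR (G.S.D a u) ≠ ⊤) : G.gd.H1 u.1 :=
  Lin.Gd.h1_of_D (G.gd_s2.2 h) fun a => by rw [gd_D]; exact G.gd_s2.2 (hD a)

theorem PG.h1 (h : G.PG u.1) (hL : G.PG (G.S.LL u).1) : G.gd.H1 u.1 := h1_of_gR h.gR hL.gR

theorem PG.h1_D (h : G.PG u.1) (hD : ∀ a, G.PG (G.S.D a u).1) : G.gd.H1 u.1 :=
  h1_of_gR_D h.gR fun a => (hD a).gR

theorem Sy.h1 {k : ℤ} (h : G.Sy k u) : G.gd.H1 u.1 := h.pg.h1_D fun a => (h.D a).pg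

theorem gR_D_of_h1 (h : G.gd.H1 u.1) (a : Fin 3) : G.gR (G.S.D a u) ≠ ⊤ :=
  G.gd_s2.1 (by rw [← gd_D]; exact h.D a)

theorem gC_ne_top_iff {f : G.SmC} : G.gC f ≠ ⊤ ↔ G.gR (G.re f) ≠ ⊤ ∧ G.gR (G.im f) ≠ ⊤ :=
  ⟨fun h => ⟨ne_top_of_le_ne_top h (G.nm_g.re_le f), ne_top_of_le_ne_top h (G.nm_g.im_le f)⟩,
    fun h => ne_top_of_le_ne_top (ENNReal.add_ne_top.2 h) (G.nm_g.le_re_im f)⟩

/-- complex functions with `f, L f ∈ L²`: both parts are in `H¹` -/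
theorem h1_of_gC {f : G.SmC} (h : G.gC f ≠ ⊤) (hL : G.gC (G.SC.LL f) ≠ ⊤) :
    G.gd.H1 (G.re f).1 ∧ G.gd.H1 (G.im f).1 := by
  rw [gC_ne_top_iff] at h hL
  rw [re_LL, im_LL] at hL
  exact ⟨h1_of_gR h.1 hL.1, h1_of_gR h.2 hL.2⟩

/-- complex functions with `f, L f ∈ L²`: the derivatives are in `L²` -/
theorem gC_D_ne_top {f : G.SmC} (h : G.gC f ≠ ⊤) (hL : G.gC (G.SC.LL f) ≠ ⊤) (a : Fin 3) :
    G.gC (G.SC.D a f) ≠ ⊤ := by
  obtain ⟨h1, h2⟩ := h1_of_gC h hL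
  rw [gC_ne_top_iff, re_D, im_D]
  exact ⟨gR_D_of_h1 h1 a, gR_D_of_h1 h2 a⟩

end

end WS.Geo

end Crest.Agent.N250

end
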