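import Crest.Agent.N250.Wt.Base

/-!
# Row 250 (helper73): explicit solutions of the Jacobi operator of a shrinker
-/

set_option autoImplicit false
set_option linter.unusedSectionVars false

noncomputable section

namespace Crest.Agent.N250.Mov.IsHyp

open Crest.Agent.N222

variable {R : Type} [CommRing R] [Algebra ℝ R] {ι : Type} [Fintype ι] [DecidableEq ι]
  {S : Mov R ι} (H : S.IsHyp)

theorem half_two : algebraMap ℝ R (1 / 2) * 2 = 1 := by
  have : (2 : R) = algebraMap ℝ R 2 := (map_ofNat (algebraMap ℝ R) 2).symm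
  rw [this, ← map_mul]; norm_num

theorem LL_def (S : Mov R ι) (f : R) : S.LL f =
    S.lap f - algebraMap ℝ R (1 / 2) * S.dr f + algebraMap ℝ R (1 / 2) * f + S.a2 * f := by
  simp only [Mov.LL, Mov.Mi, Mov.Pi, Nat.cast_zero]; ring

include H

theorem dr_add' (f g : R) : S.dr (f + g) = S.dr f + S.dr g := by
  simp only [Mov.dr, H.add, mul_add, Finset.sum_add_distrib]

theorem dr_mul' (f g : R) : S.dr (f * g) = f * S.dr g + S.dr f * g := by
  simp only [Mov.dr, H.mul, Finset.mul_sum, Finset.sum_mul, ← Finset.sum_add_distrib]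
  exact Finset.sum_congr rfl fun a _ => by ring

theorem lap_add' (f g : R) : S.lap (f + g) = S.lap f + S.lap g := by
  simp only [Pre.lap, H.add, Finset.sum_add_distrib]

theorem lap_mul' (f g : R) : S.lap (f * g) = f * S.lap g + 2 * S.gam f g + S.lap f * g := by
  simp only [Pre.lap, Pre.gam, H.add, H.mul, Finset.mul_sum, Finset.sum_mul,
    ← Finset.sum_add_distrib]
  exact Finset.sum_congr rfl fun a _ => by ring

theorem LL_add (f g : R) : S.LL (f + g) = S.LL f + S.LL g := by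
  simp only [LL_def, H.dr_add', H.lap_add']; ring

theorem LL_zero : S.LL 0 = 0 := by
  have := H.LL_add 0 0
  rw [add_zero] at this
  exact left_eq_add.1 this

theorem LL_neg (f : R) : S.LL (-f) = -S.LL f := by
  have := H.LL_add f (-f)
  rw [add_neg_cancel, H.LL_zero] at this
  exact (neg_eq_of_add_eq_zero_right this.symm).symm

theorem LL_sub (f g : R) : S.LL (f - g) = S.LL f - S.LL g := by
  rw [sub_eq_add_neg, H.LL_add, H.LL_neg, sub_eq_add_neg]

theorem LL_sum {κ : Type*} (s : Finset κ) (f : κ → R) :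
    S.LL (∑ k ∈ s, f k) = ∑ k ∈ s, S.LL (f k) := by
  classical
  induction s using Finset.induction_on with
  | empty => simp [H.LL_zero]
  | insert a s ha ih => rw [Finset.sum_insert ha, Finset.sum_insert ha, H.LL_add, ih]

/-- product rule -/
theorem LL_mul (f g : R) : S.LL (f * g) =
    f * S.LL g + 2 * S.gam f g + (S.lap f - algebraMap ℝ R (1 / 2) * S.dr f) * g := by
  simp only [LL_def, H.dr_mul', H.lap_mul']; ring

theorem dr_const (c : ℝ) : S.dr (algebraMap ℝ R c) = 0 := by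
  simp only [Mov.dr, H.const, mul_zero, Finset.sum_const_zero]

theorem lap_const (c : ℝ) : S.lap (algebraMap ℝ R c) = 0 := by
  simp only [Pre.lap, H.const, H.toIsDS.D_zero, Finset.sum_const_zero]

theorem LL_cmul (c : ℝ) (f : R) :
    S.LL (algebraMap ℝ R c * f) = algebraMap ℝ R c * S.LL f := by
  rw [H.LL_mul, H.dr_const, H.lap_const]
  simp only [Pre.gam, H.const, zero_mul, Finset.sum_const_zero]; ring

theorem dr_x (b : ι) : S.dr (S.x b) = S.x b - S.xn * S.n b := by
  have := H.P_apply S.x b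
  simp only [Mov.dr, Mov.xn]
  rw [show ∑ a, S.x a * S.D a (S.x b) = ∑ a, S.P b a * S.x a from
    Finset.sum_congr rfl fun a _ => by rw [H.symm b a, Pre.P, mul_comm], this]
  simp only [mul_comm]

theorem dr_n (hs : S.xn = 2 * S.h) (a : ι) : S.dr (S.n a) = 2 * S.D a S.h := by
  have h1 := H.D_xn a
  rw [hs, H.mul, H.toIsDS.D_two] at h1
  rw [Mov.dr, show ∑ c, S.x c * S.D c (S.n a) = ∑ b, S.B a b * S.x b from
    Finset.sum_congr rfl fun c _ => by rw [H.B_symm a c, Mov.B, mul_comm], ← h1]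
  ring

/-- `L n = n / 2` -/
theorem LL_n (hs : S.xn = 2 * S.h) (a : ι) :
    S.LL (S.n a) = algebraMap ℝ R (1 / 2) * S.n a := by
  rw [LL_def, H.lap_n, H.dr_n hs]
  linear_combination (-S.D a S.h) * (half_two (R := R))

/-- `(Δ - x·∇/2) x = -x / 2` -/
theorem L0_x (hs : S.xn = 2 * S.h) (b : ι) :
    S.lap (S.x b) - algebraMap ℝ R (1 / 2) * S.dr (S.x b) =
      -(algebraMap ℝ R (1 / 2) * S.x b) := by
  rw [H.lap_x, H.dr_x, hs]
  linear_combination (S.h * S.n b) * (half_two (R := R))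

theorem LL_xn' (hs : S.xn = 2 * S.h) (a b : ι) : S.LL (S.x b * S.n a) = 2 * S.B b a := by
  rw [H.LL_mul, H.LL_n hs, H.L0_x hs, H.gam_comm, H.gam_x, Mov.B]; ring

/-- rotations give Jacobi fields -/
theorem LL_rot (hs : S.xn = 2 * S.h) (a b : ι) :
    S.LL (S.x b * S.n a - S.x a * S.n b) = 0 := by
  rw [H.LL_sub, H.LL_xn' hs, H.LL_xn' hs, H.B_symm a b, sub_self]

/-- `⟨Ω x, n⟩` is a Jacobi field for skew `Ω` -/
theorem LL_skew (hs : S.xn = 2 * S.h) (Ω : ι → ι → ℝ) (hΩ : ∀ a b, Ω a b = -Ω b a) :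
    S.LL (∑ a, ∑ b, algebraMap ℝ R (Ω a b) * (S.x b * S.n a)) = 0 := by
  simp only [H.LL_sum, H.LL_cmul, H.LL_xn' hs]
  apply Pre.IsDS.two_cancel
  rw [two_mul]
  nth_rewrite 2 [Finset.sum_comm]
  rw [← Finset.sum_add_distrib]
  refine Finset.sum_eq_zero fun a _ => ?_
  rw [← Finset.sum_add_distrib]
  refine Finset.sum_eq_zero fun b _ => ?_
  rw [hΩ b a, map_neg, H.B_symm a b]; ring

/-- `L H = H` -/
theorem LL_h (hs : S.xn = 2 * S.h) : S.LL S.h = S.h := by
  have h1 := H.lap_xn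
  have h2 : S.lap (2 * S.h) = 2 * S.lap S.h := by rw [two_mul, H.lap_add', two_mul]
  rw [hs, h2] at h1
  rw [LL_def, Mov.dr]
  linear_combination algebraMap ℝ R (1 / 2) * h1
    + (S.h - S.lap S.h - S.a2 * S.h) * (half_two (R := R))

theorem dr_x2 : S.dr S.x2 = 2 * (S.x2 - S.xn * S.xn) := by
  simp only [Mov.dr, H.D_x2]
  rw [Mov.x2, Mov.xn, Finset.mul_sum, ← Finset.sum_sub_distrib, Finset.mul_sum]
  exact Finset.sum_congr rfl fun a _ => by ring

theorem gam_x2 (f : R) : S.gam S.x2 f = 2 * S.dr f := by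
  have := H.n_D f
  simp only [Pre.gam, H.D_x2, Mov.dr]
  rw [show ∑ a, 2 * (S.x a - S.xn * S.n a) * S.D a f =
    2 * ∑ a, S.x a * S.D a f - 2 * S.xn * ∑ a, S.n a * S.D a f by
      rw [Finset.mul_sum, Finset.mul_sum, ← Finset.sum_sub_distrib]
      exact Finset.sum_congr rfl fun a _ => by ring, this]
  ring

/-- `L (H (|x|² - 4)) = 4 x·∇H` on a two dimensional shrinker -/
theorem LL_hx2 (hs : S.xn = 2 * S.h) (hc : Fintype.card ι = 3) :
    S.LL (S.x2 * S.h - 4 * S.h) = 4 * S.dr S.h := by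
  have h4 : S.LL (4 * S.h) = 4 * S.h := by
    rw [show 4 * S.h = S.h + S.h + (S.h + S.h) by ring]
    simp only [H.LL_add, H.LL_h hs]
  rw [H.LL_sub, h4, H.LL_mul, H.LL_h hs, H.gam_x2, H.lap_x2, H.dr_x2, hs, hc]
  push_cast
  linear_combination (-(S.x2 - 2 * S.h * (2 * S.h)) * S.h) * (half_two (R := R))

end Crest.Agent.N250.Mov.IsHyp

end
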