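import Mathlib

/-!
# Row 250 (helper5): the window form of the Stokes argument, part A (tools)

`lim_int` (dominated convergence up to an error function), `cesaro` (non oscillating part of a
trigonometric sum), the window `Win`, the level `rho`, the weight `wt`, Stokes formula `stokes`.
-/

set_option autoImplicit false
open MeasureTheory Set Filter Topology Complex
open scoped Interval

noncomputable section

namespace Crest.Agent.N250.Sw

/-- dominated convergence up to an error function `m` -/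
theorem lim_int {X E : Type*} [MeasurableSpace X] {μ : Measure X} [NormedAddCommGroup E]
    [NormedSpace ℝ E] (F : ℝ → X → E) (f : X → E) (b m : X → ℝ) (hF : ∀ᶠ n in atTop, AEStronglyMeasurable (F n) μ)
    (hb : ∀ᶠ n in atTop, ∀ x, ‖F n x‖ ≤ b x) (ib : Integrable b μ) (jf : Integrable f μ)
    (im : Integrable m μ) (m0 : ∀ x, 0 ≤ m x)
    (hl : ∀ x, ∀ ε > 0, ∀ᶠ n in atTop, ‖F n x - f x‖ ≤ m x + ε) :
    ∀ ε > 0, ∀ᶠ n in atTop, ‖∫ x, F n x ∂μ - ∫ x, f x ∂μ‖ ≤ ∫ x, m x ∂μ + ε := by
  intro ε hε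
  have key : Tendsto (fun n => ∫ x, max (‖F n x - f x‖ - m x) 0 ∂μ) atTop (𝓝 (∫ _x, (0 : ℝ) ∂μ)) := by
    refine tendsto_integral_filter_of_dominated_convergence (fun x => b x + ‖f x‖) ?_ ?_
      (ib.add jf.norm) ?_
    · filter_upwards [hF] with n hn
      exact ((hn.sub jf.1).norm.sub im.1).sup aestronglyMeasurable_const
    · filter_upwards [hb] with n hn
      refine ae_of_all _ fun x => ?_
      have h1 := norm_sub_le (F n x) (f x)
      have h2 := hn x
      have h3 := m0 x
      have h4 := norm_nonneg (F n x)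
      have h5 := norm_nonneg (f x)
      rw [Real.norm_eq_abs, abs_of_nonneg (le_max_right _ _)]
      exact max_le (by linarith) (by linarith)
    · refine ae_of_all _ fun x => ?_
      rw [Metric.tendsto_nhds]
      intro e he
      filter_upwards [hl x (e / 2) (by positivity)] with n hn
      rw [Real.dist_eq, sub_zero, abs_of_nonneg (le_max_right _ _)]
      exact max_lt (by linarith) he
  rw [integral_zero] at key
  filter_upwards [hF, hb, key.eventually (gt_mem_nhds hε)] with n h1 h2 h3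
  have iF : Integrable (F n) μ := ib.mono' h1 (ae_of_all _ h2)
  have i1 : Integrable (fun x => max (‖F n x - f x‖ - m x) 0) μ :=
    ((iF.sub jf).norm.sub im).sup (integrable_zero _ _ _)
  rw [← integral_sub iF jf]
  calc ‖∫ x, (F n x - f x) ∂μ‖ ≤ ∫ x, (m x + max (‖F n x - f x‖ - m x) 0) ∂μ := by
        refine norm_integral_le_of_norm_le (im.add i1) (ae_of_all _ fun x => ?_)
        have := le_max_left (‖F n x - f x‖ - m x) 0
        linarith
    _ = ∫ x, m x ∂μ + ∫ x, max (‖F n x - f x‖ - m x) 0 ∂μ := integral_add im i1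
    _ ≤ _ := by linarith

/-- the non oscillating part of a trigonometric sum is bounded by the eventual sup -/
theorem cesaro {κ : Type*} [Fintype κ] (a : κ → ℂ) (γ : κ → ℝ) (β : ℝ)
    (h : ∀ᶠ s : ℝ in atTop, ‖∑ j, a j * exp (-(I * γ j * s))‖ ≤ β) :
    ‖∑ j with γ j = 0, a j‖ ≤ β := by
  classical
  obtain ⟨S, hS⟩ := eventually_atTop.1 h
  set K : ℝ := ∑ j, ‖a j‖ * (2 / |γ j|) with hK
  have one : ∀ T : ℝ, 0 < T → ‖∑ j with γ j = 0, a j‖ * T ≤ β * T + K := by
    intro T hT
    have hc : ∀ j, Continuous fun s : ℝ => a j * exp (-(I * γ j * s)) := fun j => by fun_prop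
    have e1 : ∫ s in S..S + T, ∑ j, a j * exp (-(I * γ j * s)) =
        ∑ j, ∫ s in S..S + T, a j * exp (-(I * γ j * s)) :=
      intervalIntegral.integral_finsetSum fun j _ => (hc j).intervalIntegrable _ _
    have b1 : ‖∫ s in S..S + T, ∑ j, a j * exp (-(I * γ j * s))‖ ≤ β * T := by
      have := intervalIntegral.norm_integral_le_of_norm_le_const (a := S) (b := S + T) (C := β)
        (f := fun s : ℝ => ∑ j, a j * exp (-(I * γ j * s))) (fun x hx => by
          rw [uIoc_of_le (by linarith)] at hx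
          exact hS x hx.1.le)
      rwa [add_sub_cancel_left, abs_of_pos hT] at this
    have b2 : ∀ j, ‖(∫ s in S..S + T, a j * exp (-(I * γ j * s))) -
        (if γ j = 0 then a j * T else 0)‖ ≤ ‖a j‖ * (2 / |γ j|) := by
      intro j
      by_cases hj : γ j = 0
      · simp [hj, mul_comm]
      · rw [if_neg hj, sub_zero, intervalIntegral.integral_const_mul, norm_mul]
        refine mul_le_mul_of_nonneg_left ?_ (norm_nonneg _)
        have hne : -(I * (γ j : ℂ)) ≠ 0 := by simp [hj]
        have : (fun s : ℝ => exp (-(I * γ j * s))) = fun s : ℝ => exp (-(I * γ j) * s) := by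
          funext s; ring_nf
        rw [this, integral_exp_mul_complex hne, norm_div]
        have n1 : ∀ s : ℝ, ‖exp (-(I * γ j) * s)‖ = 1 := fun s => by
          rw [Complex.norm_exp]; simp
        have n2 : ‖-(I * (γ j : ℂ))‖ = |γ j| := by simp
        rw [n2]
        refine div_le_div_of_nonneg_right ?_ (abs_nonneg _)
        calc _ ≤ _ := norm_sub_le _ _
          _ = 2 := by rw [n1, n1]; norm_num
    have e2 : (∑ j with γ j = 0, a j) * (T : ℂ) = ∑ j, if γ j = 0 then a j * T else 0 := by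
      rw [Finset.sum_mul, Finset.sum_filter]
    have e3 : (∑ j with γ j = 0, a j) * (T : ℂ) =
        (∫ s in S..S + T, ∑ j, a j * exp (-(I * γ j * s))) -
        ∑ j, ((∫ s in S..S + T, a j * exp (-(I * γ j * s))) -
          (if γ j = 0 then a j * T else 0)) := by
      rw [e1, e2, Finset.sum_sub_distrib]; ring
    have n3 : ‖(∑ j with γ j = 0, a j) * (T : ℂ)‖ = ‖∑ j with γ j = 0, a j‖ * T := by
      rw [norm_mul, Complex.norm_real, Real.norm_eq_abs, abs_of_pos hT]
    rw [← n3, e3]
    refine (norm_sub_le _ _).trans (add_le_add b1 ?_)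
    exact (norm_sum_le _ _).trans (Finset.sum_le_sum fun j _ => b2 j)
  by_contra hc
  push Not at hc
  have K0 : 0 ≤ K := Finset.sum_nonneg fun j _ => by positivity
  set d := ‖∑ j with γ j = 0, a j‖ - β with hd
  have d0 : 0 < d := by linarith
  have := one ((K + 1) / d) (by positivity)
  have e : d * ((K + 1) / d) = K + 1 := by field_simp
  nlinarith

/-- the window around `n` -/
def Win (δ n : ℝ) : Set ℂ := {A | |A.re - n| ≤ δ * n ∧ |A.im| ≤ δ * n}

/-- the parabolic level -/
def rho (n : ℝ) (A : ℂ) : ℝ := A.re + A.im ^ 2 / (8 * n)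

/-- the test function -/
def psi (n : ℝ) (A : ℂ) : ℂ := exp (A - (A - n) ^ 2 / (16 * n))

/-- the weight of the area term -/
def wt (n : ℝ) (A : ℂ) : ℂ := psi n A * exp (-(rho n A : ℂ)) * (I - (A.im / (4 * n) : ℝ))

theorem isClosed_Win (δ n : ℝ) : IsClosed (Win δ n) := by
  have h1 : IsClosed {A : ℂ | |A.re - n| ≤ δ * n} := isClosed_le (by fun_prop) continuous_const
  have h2 : IsClosed {A : ℂ | |A.im| ≤ δ * n} := isClosed_le (by fun_prop) continuous_const
  exact h1.inter h2

theorem cont_rho (n : ℝ) : Continuous (rho n) := by unfold rho; fun_prop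

theorem cont_psi (n : ℝ) : Continuous (psi n) := by unfold psi; fun_prop

theorem cont_wt (n : ℝ) : Continuous (wt n) := by
  have := cont_rho n
  have := cont_psi n
  unfold wt; fun_prop

theorem norm_psi {n : ℝ} (hn : 0 < n) (A : ℂ) :
    ‖psi n A‖ * Real.exp (-rho n A) =
      Real.exp (-(A.re - n) ^ 2 / (16 * n)) * Real.exp (-A.im ^ 2 / (16 * n)) := by
  rw [psi, Complex.norm_exp, ← Real.exp_add, ← Real.exp_add]
  congr 1
  have : ((A - n) ^ 2 / (16 * n)).re = ((A.re - n) ^ 2 - A.im ^ 2) / (16 * n) := by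
    have : (16 * n : ℂ) = ((16 * n : ℝ) : ℂ) := by push_cast; ring
    rw [this, Complex.div_ofReal_re, sq, Complex.mul_re]
    simp; ring
  rw [sub_re, this, rho]
  field_simp
  ring

theorem norm_wt {δ n : ℝ} (hn : 0 < n) {A : ℂ} (hA : A ∈ Win δ n) :
    ‖wt n A‖ ≤ (1 + δ) * (Real.exp (-(A.re - n) ^ 2 / (16 * n)) * Real.exp (-A.im ^ 2 / (16 * n))) := by
  rw [← norm_psi hn, wt, norm_mul, norm_mul, Complex.norm_exp]
  have h1 : ‖I - ((A.im / (4 * n) : ℝ) : ℂ)‖ ≤ 1 + δ := by
    refine (norm_sub_le _ _).trans ?_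
    rw [norm_I, Complex.norm_real, Real.norm_eq_abs, abs_div, abs_of_pos (by positivity : 0 < 4 * n)]
    have : |A.im| / (4 * n) ≤ δ := by
      rw [div_le_iff₀ (by positivity)]
      have := hA.2
      nlinarith [abs_nonneg A.im]
    linarith
  have h2 : (-(rho n A : ℂ)).re = -rho n A := by simp
  rw [h2, mul_comm (1 + δ)]
  exact mul_le_mul_of_nonneg_left h1 (by positivity)

theorem mem_Win {δ n x v : ℝ} (hx : x ∈ Icc (n - δ * n) (n + δ * n)) (hv : v ∈ Icc (-(δ * n)) (δ * n)) :
    (x + v * I : ℂ) ∈ Win δ n := by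
  constructor
  · simp only [add_re, ofReal_re, mul_re, I_re, mul_zero, ofReal_im, I_im, mul_one, sub_self,
      add_zero]
    exact abs_le.2 ⟨by linarith [hx.1], by linarith [hx.2]⟩
  · simp only [add_im, ofReal_im, mul_im, ofReal_re, I_im, mul_one, I_re, mul_zero, add_zero,
      zero_add]
    exact abs_le.2 hv

/-- the `∂̄` expression of a composition `A ↦ g (ℓ (rho n A), A)` -/
theorem dbar_comp {n : ℝ} {A : ℂ} {g : ℝ × ℂ → ℂ} {L : ℝ × ℂ →L[ℝ] ℂ}
    (hg : HasFDerivAt g L (rho n A, A)) (hL : L (0, I) = I * L (0, 1)) :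
    DifferentiableAt ℝ (fun B => g (rho n B, B)) A ∧
      I * fderiv ℝ (fun B => g (rho n B, B)) A 1 - fderiv ℝ (fun B => g (rho n B, B)) A I =
        L (1, 0) * (I - (A.im / (4 * n) : ℝ)) := by
  have h1 : HasFDerivAt (rho n) (reCLM + (A.im / (4 * n)) • imCLM) A := by
    have := reCLM.hasFDerivAt.add (((imCLM.hasFDerivAt (x := A)).pow 2).mul_const (8 * n)⁻¹)
    have e : rho n = ⇑reCLM + fun y => imCLM y ^ 2 * (8 * n)⁻¹ := by
      funext B; simp [rho, div_eq_mul_inv]
    rw [e]
    refine this.congr_fderiv ?_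
    ext B <;> simp <;> ring
  have h3 : HasFDerivAt (fun B => g (rho n B, B)) _ A :=
    HasFDerivAt.comp (f := fun B => (rho n B, B)) A hg (h1.prodMk (hasFDerivAt_id A))
  refine ⟨h3.differentiableAt, ?_⟩
  rw [h3.fderiv]
  have e1 : L (1, 1) = L (1, 0) + L (0, 1) := by rw [← map_add]; simp
  have e2 : L (A.im / (4 * n), I) = (A.im / (4 * n) : ℝ) * L (1, 0) + L (0, I) := by
    rw [← real_smul, ← map_smul, ← map_add]; simp
  simp only [ContinuousLinearMap.comp_apply, ContinuousLinearMap.prod_apply,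
    ContinuousLinearMap.add_apply, ContinuousLinearMap.smul_apply, reCLM_apply, imCLM_apply, one_re,
    one_im, I_re, I_im, smul_eq_mul, mul_zero, add_zero, mul_one, zero_add,
    ContinuousLinearMap.id_apply]
  rw [e1, e2, hL]; ring

/-- Stokes on the window -/
theorem stokes {δ n η : ℝ} (hn : 0 < n) (hδ : 0 < δ) {H D : ℂ → ℂ}
    (hH : ∀ A ∈ Win δ n, DifferentiableAt ℝ H A ∧
      I * fderiv ℝ H A 1 - fderiv ℝ H A I = D A * (I - (A.im / (4 * n) : ℝ)))
    (hD : ContinuousOn D (Win δ n))
    (hb : ∀ A ∈ Win δ n, (|A.re - n| = δ * n ∨ |A.im| = δ * n) →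
      ‖H A‖ ≤ η * Real.exp (-rho n A)) :
    ‖∫ x in (n - δ * n)..(n + δ * n), ∫ v in (-(δ * n))..(δ * n),
      psi n (x + v * I) * (D (x + v * I) * (I - (((x + v * I : ℂ).im / (4 * n) : ℝ))))‖ ≤
      8 * (δ * n) * (η * Real.exp (-(δ ^ 2 * n / 16))) := by
  have d0 : 0 < δ * n := by positivity
  have hψ : ∀ A, HasDerivAt (psi n) (deriv (psi n) A) A := fun A => by
    refine DifferentiableAt.hasDerivAt ?_
    unfold psi; fun_prop
  set z : ℂ := ⟨n - δ * n, -(δ * n)⟩
  set w : ℂ := ⟨n + δ * n, δ * n⟩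
  have hW : ([[z.re, w.re]] ×ℂ [[z.im, w.im]]) = Win δ n := by
    ext A
    simp only [z, w, mem_reProdIm, Win, mem_ofPred_eq]
    rw [uIcc_of_le (by linarith), uIcc_of_le (by linarith), abs_le, abs_le, mem_Icc, mem_Icc]
    constructor <;> rintro ⟨⟨a, b⟩, c, d⟩ <;> refine ⟨⟨?_, ?_⟩, ?_, ?_⟩ <;> linarith
  have hd : ∀ A ∈ Win δ n, HasFDerivAt (fun B => psi n B * H B)
      (psi n A • fderiv ℝ H A + H A • ((ContinuousLinearMap.toSpanSingleton ℂ
        (deriv (psi n) A)).restrictScalars ℝ)) A := fun A hA =>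
    ((hψ A).hasFDerivAt.restrictScalars ℝ).mul (hH A hA).1.hasFDerivAt
  have hform : ∀ A ∈ Win δ n, I • (psi n A • fderiv ℝ H A + H A •
      ((ContinuousLinearMap.toSpanSingleton ℂ (deriv (psi n) A)).restrictScalars ℝ)) 1 -
      (psi n A • fderiv ℝ H A + H A • ((ContinuousLinearMap.toSpanSingleton ℂ
        (deriv (psi n) A)).restrictScalars ℝ)) I =
      psi n A * (D A * (I - (A.im / (4 * n) : ℝ))) := fun A hA => by
    rw [← (hH A hA).2]
    simp; ring
  have hcw : IsCompact (Win δ n) := by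
    rw [← hW]; exact IsCompact.reProdIm isCompact_uIcc isCompact_uIcc
  have st := integral_boundary_rect_of_hasFDerivAt_real_off_countable (fun B => psi n B * H B)
    (fun A => psi n A • fderiv ℝ H A + H A • ((ContinuousLinearMap.toSpanSingleton ℂ
      (deriv (psi n) A)).restrictScalars ℝ)) z w ∅ countable_empty
    (by rw [hW]; exact fun A hA => (hd A hA).continuousAt.continuousWithinAt)
    (by
      intro A hA
      refine hd A ?_
      rw [← hW]
      exact ⟨Ioo_subset_Icc_self hA.1.1, Ioo_subset_Icc_self hA.1.2⟩)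
    (by
      rw [hW]
      refine IntegrableOn.congr_fun ?_ (fun A hA => (hform A hA).symm) (isClosed_Win δ n).measurableSet
      refine ContinuousOn.integrableOn_compact hcw ?_
      exact (cont_psi n).continuousOn.mul (hD.mul (by fun_prop)))
  have e1 : (∫ x in (n - δ * n)..(n + δ * n), ∫ v in (-(δ * n))..(δ * n),
      psi n (x + v * I) * (D (x + v * I) * (I - (((x + v * I : ℂ).im / (4 * n) : ℝ))))) =
      ∫ x : ℝ in z.re..w.re, ∫ y : ℝ in z.im..w.im,
        I • (psi n (x + y * I) • fderiv ℝ H (x + y * I) + H (x + y * I) •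
        ((ContinuousLinearMap.toSpanSingleton ℂ (deriv (psi n) (x + y * I))).restrictScalars ℝ)) 1 -
        (psi n (x + y * I) • fderiv ℝ H (x + y * I) + H (x + y * I) •
        ((ContinuousLinearMap.toSpanSingleton ℂ (deriv (psi n) (x + y * I))).restrictScalars ℝ)) I := by
    refine intervalIntegral.integral_congr fun x hx => intervalIntegral.integral_congr fun v hv => ?_
    rw [uIcc_of_le (by linarith)] at hx hv
    exact (hform _ (mem_Win hx hv)).symm
  rw [e1, ← st]
  set M := η * Real.exp (-(δ ^ 2 * n / 16)) with hM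
  have pt : ∀ x v : ℝ, x ∈ Icc (n - δ * n) (n + δ * n) → v ∈ Icc (-(δ * n)) (δ * n) →
      (|x - n| = δ * n ∨ |v| = δ * n) → ‖psi n (x + v * I) * H (x + v * I)‖ ≤ M := by
    intro x v hx hv hxv
    have hA := mem_Win hx hv
    have h1 := hb _ hA (by simpa using hxv)
    have η0 : 0 ≤ η := by
      by_contra h
      push Not at h
      have := mul_neg_of_neg_of_pos h (Real.exp_pos (-rho n (x + v * I)))
      linarith [norm_nonneg (H (x + v * I))]
    have h2 := norm_psi hn (x + v * I)
    have h3 : Real.exp (-((x + v * I : ℂ).re - n) ^ 2 / (16 * n)) *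
        Real.exp (-(x + v * I : ℂ).im ^ 2 / (16 * n)) ≤ Real.exp (-(δ ^ 2 * n / 16)) := by
      rw [← Real.exp_add]
      refine Real.exp_le_exp.2 ?_
      have : (δ * n) ^ 2 ≤ (x - n) ^ 2 + v ^ 2 := by
        rcases hxv with h | h
        · rw [← h, sq_abs]; nlinarith [sq_nonneg v]
        · rw [← h, sq_abs]; nlinarith [sq_nonneg (x - n)]
      simp only [add_re, ofReal_re, mul_re, I_re, mul_zero, ofReal_im, I_im, mul_one, sub_self,
        add_zero, add_im, mul_im, zero_add]
      rw [← add_div, div_le_iff₀ (by positivity)]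
      nlinarith
    rw [norm_mul]
    calc _ ≤ ‖psi n (x + v * I)‖ * (η * Real.exp (-rho n (x + v * I))) :=
          mul_le_mul_of_nonneg_left h1 (norm_nonneg _)
      _ = η * (‖psi n (x + v * I)‖ * Real.exp (-rho n (x + v * I))) := by ring
      _ ≤ M := by rw [h2]; exact mul_le_mul_of_nonneg_left h3 η0
  have side : ∀ (a b : ℝ) (f : ℝ → ℂ), b - a = 2 * (δ * n) → (∀ x ∈ Icc a b, ‖f x‖ ≤ M) →
      ‖∫ x in a..b, f x‖ ≤ 2 * (δ * n) * M := by
    intro a b f hab hf
    have := intervalIntegral.norm_integral_le_of_norm_le_const (a := a) (b := b) (C := M) (f := f)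
      (fun x hx => by
        rw [uIoc_of_le (by linarith)] at hx
        exact hf x ⟨hx.1.le, hx.2⟩)
    rw [hab, abs_of_pos (by positivity)] at this
    linarith
  have s1 := side z.re w.re (fun x => psi n (x + z.im * I) * H (x + z.im * I)) (by simp [z, w]; ring)
    fun x hx => pt x _ hx ⟨le_rfl, by simp only [z]; linarith⟩ (Or.inr (by
      simp only [z]; rw [abs_neg, abs_of_pos d0]))
  have s2 := side z.re w.re (fun x => psi n (x + w.im * I) * H (x + w.im * I)) (by simp [z, w]; ring)
    fun x hx => pt x _ hx ⟨by simp only [w]; linarith, le_rfl⟩ (Or.inr (by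
      simp only [w]; rw [abs_of_pos d0]))
  have s3 := side z.im w.im (fun y => psi n (w.re + y * I) * H (w.re + y * I)) (by simp [z, w]; ring)
    fun y hy => pt _ y ⟨by simp only [w]; linarith, le_rfl⟩ hy (Or.inl (by
      simp only [w]; rw [add_sub_cancel_left, abs_of_pos d0]))
  have s4 := side z.im w.im (fun y => psi n (z.re + y * I) * H (z.re + y * I)) (by simp [z, w]; ring)
    fun y hy => pt _ y ⟨le_rfl, by simp only [z]; linarith⟩ hy (Or.inl (by
      simp only [z]; rw [sub_sub_cancel_left, abs_neg, abs_of_pos d0]))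
  have nI : ∀ c : ℂ, ‖I • c‖ = ‖c‖ := fun c => by simp
  refine (norm_sub_le _ _).trans ?_
  refine (add_le_add (norm_add_le _ _) le_rfl).trans ?_
  have := norm_sub_le (∫ x in z.re..w.re, psi n (x + z.im * I) * H (x + z.im * I))
    (∫ x in z.re..w.re, psi n (x + w.im * I) * H (x + w.im * I))
  rw [nI, nI]
  linarith

end Crest.Agent.N250.Sw

end
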