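import Crest.Agent.N250.Sw.A

/-!
# Row 250 (helper5): the window form of the Stokes argument, part B (rescaling and limits)
-/

set_option autoImplicit false
open MeasureTheory Set Filter Topology Complex
open scoped Interval

noncomputable section

namespace Crest.Agent.N250.Sw

/-- the real part `n + ξ √n` -/
def xx (n ξ : ℝ) : ℝ := n + ξ * √n

/-- rescaled points -/
def pp (n ξ v : ℝ) : ℂ := (xx n ξ : ℝ) + (v : ℝ) * I

@[simp] theorem pp_re (n ξ v : ℝ) : (pp n ξ v).re = xx n ξ := by simp [pp]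

@[simp] theorem pp_im (n ξ v : ℝ) : (pp n ξ v).im = v := by simp [pp]

theorem cont_pp (n : ℝ) : Continuous fun p : ℝ × ℝ => pp n p.1 p.2 := by unfold pp xx; fun_prop

variable {E : Type*} [NormedAddCommGroup E] [NormedSpace ℝ E]

theorem resc {δ n : ℝ} (hn : 0 < n) (hδ : 0 < δ) (F : ℂ → E) :
    ∫ x in (n - δ * n)..(n + δ * n), ∫ v in (-(δ * n))..(δ * n), F (x + v * I) =
      √n • ∫ ξ, ∫ v, (Win δ n).indicator F (pp n ξ v) := by
  have d0 : 0 < δ * n := by positivity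
  set g : ℝ → E := fun x => ∫ v : ℝ, (Win δ n).indicator F (x + v * I) with hg
  have h1 : ∀ x ∈ Icc (n - δ * n) (n + δ * n), ∫ v in (-(δ * n))..(δ * n), F (x + v * I) = g x := by
    intro x hx
    rw [intervalIntegral.integral_of_le (by linarith), ← integral_Icc_eq_integral_Ioc,
      ← integral_indicator measurableSet_Icc]
    refine integral_congr_ae (ae_of_all _ fun v => ?_)
    by_cases hv : v ∈ Icc (-(δ * n)) (δ * n)
    · simp only [indicator_of_mem hv, indicator_of_mem (mem_Win hx hv)]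
    · have : (x + v * I : ℂ) ∉ Win δ n := fun h => hv (abs_le.1 (by simpa using h.2))
      simp only [indicator_of_notMem hv, indicator_of_notMem this]
  have h2 : ∫ x in (n - δ * n)..(n + δ * n), g x = ∫ x, g x := by
    rw [intervalIntegral.integral_of_le (by linarith), ← integral_Icc_eq_integral_Ioc,
      ← integral_indicator measurableSet_Icc]
    refine integral_congr_ae (ae_of_all _ fun x => ?_)
    by_cases hx : x ∈ Icc (n - δ * n) (n + δ * n)
    · simp only [indicator_of_mem hx]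
    · simp only [indicator_of_notMem hx, hg]
      symm
      refine integral_eq_zero_of_ae (ae_of_all _ fun v => ?_)
      refine indicator_of_notMem (fun h => hx ?_) _
      have := abs_le.1 (show |x - n| ≤ δ * n by simpa using h.1)
      exact ⟨by linarith [this.1], by linarith [this.2]⟩
  have h3 : ∫ ξ, g (xx n ξ) = |(√n)⁻¹| • ∫ x, g x := by
    have := Measure.integral_comp_mul_right (fun y => g (n + y)) (√n)
    rw [integral_add_left_eq_self g n] at this
    exact this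
  have r0 : 0 < √n := Real.sqrt_pos.2 hn
  rw [intervalIntegral.integral_congr (g := g) (fun x hx => h1 x (by
    rwa [uIcc_of_le (by linarith)] at hx)), h2]
  have : (∫ ξ, ∫ v, (Win δ n).indicator F (pp n ξ v)) = ∫ ξ, g (xx n ξ) := rfl
  rw [this, h3, smul_smul, abs_of_pos (inv_pos.2 r0), mul_inv_cancel₀ r0.ne', one_smul]

omit [NormedSpace ℝ E] in
theorem intg_win {δ n K : ℝ} (hn : 0 < n) {F : ℂ → E}
    (hm : AEStronglyMeasurable (fun p : ℝ × ℝ => (Win δ n).indicator F (pp n p.1 p.2)) volume)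
    (hK : ∀ A ∈ Win δ n, ‖F A‖ ≤ K) :
    Integrable (fun p : ℝ × ℝ => (Win δ n).indicator F (pp n p.1 p.2)) := by
  have r0 : 0 < √n := Real.sqrt_pos.2 hn
  set s : Set (ℝ × ℝ) := Icc (-(δ * n / √n)) (δ * n / √n) ×ˢ Icc (-(δ * n)) (δ * n)
  have hs : IsCompact s := isCompact_Icc.prod isCompact_Icc
  refine ((integrableOn_const (C := K) hs.measure_lt_top.ne).integrable_indicator
    hs.measurableSet).mono' hm (ae_of_all _ fun p => ?_)
  by_cases hp : pp n p.1 p.2 ∈ Win δ n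
  · have : p ∈ s := by
      refine ⟨abs_le.1 ?_, abs_le.1 (by simpa using hp.2)⟩
      have h1 : |p.1 * √n| ≤ δ * n := by simpa [xx] using hp.1
      rw [abs_mul, abs_of_pos r0] at h1
      rwa [le_div_iff₀ r0]
    rw [indicator_of_mem hp, indicator_of_mem this]
    exact hK _ hp
  · rw [indicator_of_notMem hp, norm_zero]
    by_cases h : p ∈ s
    · rw [indicator_of_mem h]
      have : (n : ℂ) ∈ Win δ n := by
        have d0 : 0 ≤ δ * n := by have := h.2; linarith [this.1, this.2]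
        exact ⟨by simpa using d0, by simpa using d0⟩
      exact (norm_nonneg _).trans (hK _ this)
    · rw [indicator_of_notMem h]

theorem norm_wt_pp {δ n : ℝ} (hn : 0 < n) {ξ v : ℝ} (h : pp n ξ v ∈ Win δ n) :
    ‖wt n (pp n ξ v)‖ ≤ (1 + δ) * (Real.exp (-(1 / 16) * ξ ^ 2) * Real.exp (-(1 / (16 * n)) * v ^ 2)) := by
  have := norm_wt hn h
  rw [pp_re, pp_im] at this
  convert this using 4
  · rw [xx, add_sub_cancel_left, mul_pow, Real.sq_sqrt hn.le]; field_simp
  · field_simp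

theorem norm_wt_pp' {δ n : ℝ} (hn : 0 < n) (hδ : 0 < δ) {ξ v : ℝ} (h : pp n ξ v ∈ Win δ n) :
    ‖wt n (pp n ξ v)‖ ≤ (1 + δ) * Real.exp (-(1 / 16) * ξ ^ 2) := by
  refine (norm_wt_pp hn h).trans (mul_le_mul_of_nonneg_left ?_ (by positivity))
  refine mul_le_of_le_one_right (by positivity) (Real.exp_le_one_iff.2 ?_)
  have : 0 ≤ 1 / (16 * n) * v ^ 2 := by positivity
  linarith

theorem t_inv_sqrt : Tendsto (fun n : ℝ => (√n)⁻¹) atTop (𝓝 0) :=
  tendsto_inv_atTop_zero.comp Real.tendsto_sqrt_atTop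

theorem t_ratio (ξ : ℝ) : Tendsto (fun n => √(1 + ξ * (√n)⁻¹)) atTop (𝓝 1) := by
  have : Tendsto (fun n => 1 + ξ * (√n)⁻¹) atTop (𝓝 (1 + ξ * 0)) :=
    tendsto_const_nhds.add (t_inv_sqrt.const_mul ξ)
  simpa using this.sqrt

theorem ev_sqrt_xx (ξ : ℝ) : ∀ᶠ n in atTop, 0 < n ∧ √(xx n ξ) = √n * √(1 + ξ * (√n)⁻¹) ∧
    √(xx n ξ) - √n = ξ / (√(1 + ξ * (√n)⁻¹) + 1) := by
  have : Tendsto (fun n => 1 + ξ * (√n)⁻¹) atTop (𝓝 (1 + ξ * 0)) :=
    tendsto_const_nhds.add (t_inv_sqrt.const_mul ξ)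
  filter_upwards [eventually_gt_atTop 0, this.eventually (lt_mem_nhds (by norm_num : (0 : ℝ) < _))]
    with n hn h
  have r0 : 0 < √n := Real.sqrt_pos.2 hn
  have e : √(xx n ξ) = √n * √(1 + ξ * (√n)⁻¹) := by
    rw [← Real.sqrt_mul hn.le]
    congr 1
    have := Real.mul_self_sqrt hn.le
    rw [xx, mul_add, mul_one]
    congr 1
    field_simp
    rw [Real.sq_sqrt hn.le]
  refine ⟨hn, e, ?_⟩
  have h1 := Real.mul_self_sqrt h.le
  have h2 : 0 < √(1 + ξ * (√n)⁻¹) + 1 := by positivity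
  rw [e, eq_div_iff h2.ne']
  have h3 : √n * (ξ * (√n)⁻¹) = ξ := by field_simp
  nlinarith

/-- the points followed for an end with oscillation `γ` -/
def pg (γ n ξ v : ℝ) : ℂ := pp n ξ (v - γ * √(xx n ξ))

theorem t_im (γ ξ v : ℝ) : Tendsto (fun n => (v - γ * √(xx n ξ)) * (√n)⁻¹) atTop (𝓝 (-γ)) := by
  have : Tendsto (fun n => v * (√n)⁻¹ - γ * √(1 + ξ * (√n)⁻¹)) atTop (𝓝 (v * 0 - γ * 1)) :=
    (t_inv_sqrt.const_mul v).sub ((t_ratio ξ).const_mul γ)
  simp only [mul_zero, mul_one, zero_sub] at this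
  refine this.congr' ?_
  filter_upwards [ev_sqrt_xx ξ] with n hn
  have r0 : 0 < √n := Real.sqrt_pos.2 hn.1
  rw [hn.2.1]; field_simp

theorem ev_win {δ : ℝ} (hδ : 0 < δ) (γ ξ v : ℝ) : ∀ᶠ n in atTop, pg γ n ξ v ∈ Win δ n := by
  have h1 : Tendsto (fun n : ℝ => |ξ| * (√n)⁻¹) atTop (𝓝 (|ξ| * 0)) := t_inv_sqrt.const_mul _
  have h2 : Tendsto (fun n => |(v - γ * √(xx n ξ)) * (√n)⁻¹| * (√n)⁻¹) atTop (𝓝 (|-γ| * 0)) :=
    (t_im γ ξ v).abs.mul t_inv_sqrt
  rw [mul_zero] at h1 h2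
  filter_upwards [eventually_gt_atTop 0, h1.eventually (gt_mem_nhds hδ),
    h2.eventually (gt_mem_nhds hδ)] with n hn a b
  have r0 : 0 < √n := Real.sqrt_pos.2 hn
  have rr := Real.mul_self_sqrt hn.le
  constructor
  · rw [pg, pp_re, xx, add_sub_cancel_left, abs_mul, abs_of_pos r0]
    rw [← div_eq_mul_inv, div_lt_iff₀ r0] at a
    nlinarith
  · rw [pg, pp_im]
    rw [abs_mul, abs_of_pos (inv_pos.2 r0), mul_assoc, ← mul_inv, rr, ← div_eq_mul_inv,
      div_lt_iff₀ hn] at b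
    exact b.le

/-- the limit of the weight -/
def lw (γ ξ : ℝ) : ℂ := exp (-(I * γ * ξ / 2) - γ ^ 2 / 8 - (ξ - γ * I) ^ 2 / 16) * I

theorem t_wt (γ ξ v : ℝ) :
    Tendsto (fun n => wt n (pg γ n ξ v) * exp (I * γ * √n)) atTop (𝓝 (lw γ ξ * exp (I * v))) := by
  have c : Continuous fun q : ℝ × ℝ × ℝ => exp (I * v - I * γ * q.1 - q.2.1 ^ 2 / 8 -
      (ξ + q.2.1 * I) ^ 2 / 16) * (I - q.2.1 * q.2.2 / 4) := by fun_prop
  have h1 : Tendsto (fun n => ξ / (√(1 + ξ * (√n)⁻¹) + 1)) atTop (𝓝 (ξ / (1 + 1))) :=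
    tendsto_const_nhds.div ((t_ratio ξ).add_const 1) (by norm_num)
  have := (c.tendsto _).comp (h1.prodMk_nhds ((t_im γ ξ v).prodMk_nhds t_inv_sqrt))
  have e : exp (I * v - I * γ * ((ξ / (1 + 1) : ℝ) : ℂ) - ((-γ : ℝ) : ℂ) ^ 2 / 8 -
      (ξ + ((-γ : ℝ) : ℂ) * I) ^ 2 / 16) * (I - ((-γ : ℝ) : ℂ) * ((0 : ℝ) : ℂ) / 4) =
      lw γ ξ * exp (I * v) := by
    rw [lw, mul_right_comm _ I (exp (I * v)), ← Complex.exp_add]
    push_cast
    congr 1
    · congr 1; ring
    · ring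
  rw [e] at this
  refine this.congr' ?_
  filter_upwards [ev_sqrt_xx ξ] with n hn
  have r0 : 0 < √n := Real.sqrt_pos.2 hn.1
  have rr : ((√n : ℝ) : ℂ) * (√n : ℝ) = n := by
    rw [← ofReal_mul, Real.mul_self_sqrt hn.1.le]
  have rc : ((√n : ℝ) : ℂ) ≠ 0 := ofReal_ne_zero.2 r0.ne'
  simp only [Function.comp, wt, psi, rho, pg, pp_re, pp_im]
  rw [← hn.2.2, ← Complex.exp_add, mul_right_comm _ _ (exp (I * γ * √n)), ← Complex.exp_add]
  set s := √(xx n ξ)
  simp only [pp, xx]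
  push_cast
  set r : ℂ := ((√n : ℝ) : ℂ)
  rw [← rr]
  congr 1
  · congr 1; field_simp; ring
  · field_simp

theorem norm_lw (γ ξ : ℝ) : ‖lw γ ξ‖ ≤ Real.exp (-(1 / 16) * ξ ^ 2) := by
  rw [lw, norm_mul, norm_I, mul_one, Complex.norm_exp]
  refine Real.exp_le_exp.2 ?_
  have : (-(I * γ * ξ / 2) - γ ^ 2 / 8 - (ξ - γ * I) ^ 2 / 16 : ℂ) =
      ((-(γ ^ 2 / 16) - ξ ^ 2 / 16 : ℝ) : ℂ) + ((-(3 / 8) * γ * ξ : ℝ) : ℂ) * I := by
    push_cast
    linear_combination (-(γ : ℂ) ^ 2 / 16) * I_sq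
  rw [this]
  simp only [add_re, ofReal_re, mul_re, I_re, mul_zero, ofReal_im, I_im, mul_one, sub_self, add_zero]
  nlinarith [sq_nonneg γ]

theorem lw_zero (ξ : ℝ) : lw 0 ξ = (Real.exp (-(1 / 16) * ξ ^ 2) : ℝ) * I := by
  rw [lw]; push_cast; congr 2; ring

theorem ig : Integrable fun ξ : ℝ => Real.exp (-(1 / 16) * ξ ^ 2) :=
  integrable_exp_neg_mul_sq (by norm_num)

theorem ilw (γ : ℝ) : Integrable (lw γ) :=
  ig.mono' (by unfold lw; fun_prop) (ae_of_all _ (norm_lw γ))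

/-- main terms -/
theorem main_lim {δ γ C : ℝ} (hδ : 0 < δ) (F : ℝ → ℂ → ℂ) (L : ℝ → ℂ)
    (hm : ∀ᶠ n in atTop, Measurable ((Win δ n).indicator (F n)))
    (hb : ∀ᶠ n in atTop, ∀ A ∈ Win δ n, ‖F n A‖ ≤ C * (1 + (A.im + γ * √A.re) ^ 2)⁻¹)
    (hl : ∀ ξ v, Tendsto (fun n => F n (pg γ n ξ v)) atTop (𝓝 (L v))) :
    Tendsto (fun n => (∫ ξ, ∫ v, (Win δ n).indicator (fun A => wt n A * F n A) (pp n ξ v)) *
      exp (I * γ * √n)) atTop (𝓝 ((∫ ξ, lw γ ξ) * ∫ v : ℝ, exp (I * v) * L v)) := by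
  have C0 : 0 ≤ C := by
    obtain ⟨n, hn, h⟩ := ((eventually_gt_atTop 0).and hb).exists
    have := h n ⟨by simp; positivity, by simp; positivity⟩
    by_contra hc
    push Not at hc
    have h2 : C * (1 + ((n : ℂ).im + γ * √(n : ℂ).re) ^ 2)⁻¹ < 0 :=
      mul_neg_of_neg_of_pos hc (by positivity)
    linarith [norm_nonneg (F n n)]
  set G : ℝ → ℝ × ℝ → ℂ := fun n p =>
    (Win δ n).indicator (fun A => wt n A * F n A) (pg γ n p.1 p.2) * exp (I * γ * √n) with hG
  set b : ℝ × ℝ → ℝ := fun p =>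
    ((1 + δ) * Real.exp (-(1 / 16) * p.1 ^ 2)) * (C * (1 + p.2 ^ 2)⁻¹) with hbd
  have ib : Integrable b := (ig.const_mul _).mul_prod (integrable_inv_one_add_sq.const_mul C)
  have mG : ∀ᶠ n in atTop, AEStronglyMeasurable (G n) volume := by
    filter_upwards [hm] with n hn
    have c : Continuous fun p : ℝ × ℝ => pg γ n p.1 p.2 := by unfold pg pp xx; fun_prop
    have : Measurable ((Win δ n).indicator (fun A => wt n A * F n A)) := by
      have e : (Win δ n).indicator (fun A => wt n A * F n A) =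
          fun A => wt n A * (Win δ n).indicator (F n) A := funext fun A => indicator_mul_right _ _ _
      rw [e]
      exact (cont_wt n).measurable.mul hn
    exact ((this.comp c.measurable).mul_const _).aestronglyMeasurable
  have bG : ∀ᶠ n in atTop, ∀ p, ‖G n p‖ ≤ b p := by
    filter_upwards [hb, eventually_gt_atTop 0] with n hn n0 p
    have n1 : ‖exp (I * γ * √n)‖ = 1 := by rw [Complex.norm_exp]; simp
    simp only [hG, hbd, norm_mul, n1, mul_one]
    by_cases hp : pg γ n p.1 p.2 ∈ Win δ n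
    · rw [indicator_of_mem hp, norm_mul]
      refine mul_le_mul (norm_wt_pp' n0 hδ hp) ?_ (norm_nonneg _) (by positivity)
      simpa [pg] using hn _ hp
    · rw [indicator_of_notMem hp, norm_zero]; positivity
  have key := tendsto_integral_filter_of_dominated_convergence (μ := volume) (F := G)
    (f := fun p => lw γ p.1 * (exp (I * p.2) * L p.2)) b mG (bG.mono fun n h => ae_of_all _ h) ib
    (ae_of_all _ fun p => by
      have := (t_wt γ p.1 p.2).mul (hl p.1 p.2)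
      rw [mul_assoc] at this
      refine this.congr' ?_
      filter_upwards [ev_win hδ γ p.1 p.2] with n hn
      simp only [hG, indicator_of_mem hn]; ring)
  have e := integral_prod_mul (μ := volume) (ν := volume) (lw γ) (fun v : ℝ => exp (I * v) * L v)
  rw [← Measure.volume_eq_prod] at e
  rw [e] at key
  refine key.congr' ?_
  filter_upwards [mG, bG] with n h1 h2
  have iG : Integrable (G n) := ib.mono' h1 (ae_of_all _ h2)
  rw [Measure.volume_eq_prod] at iG ⊢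
  rw [integral_prod _ iG, ← integral_mul_const]
  refine integral_congr_ae (ae_of_all _ fun ξ => ?_)
  simp only [hG]
  rw [integral_mul_const]
  congr 1
  exact integral_sub_right_eq_self
    (fun v => (Win δ n).indicator (fun A => wt n A * F n A) (pp n ξ v)) _

/-- error terms -/
theorem err_lim {δ C : ℝ} (hδ : 0 < δ) (C0 : 0 ≤ C) (e : ℝ → ℂ → ℝ) (μ : ℝ → ℝ → ℝ) (m : ℝ → ℝ)
    (im : Integrable m) (m0 : ∀ v, 0 ≤ m v)
    (hm : ∀ᶠ n in atTop, Measurable ((Win δ n).indicator (e n)))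
    (hb : ∀ᶠ n in atTop, ∀ A ∈ Win δ n, |e n A| ≤ C * (1 + (A.im - μ n A.re) ^ 2)⁻¹)
    (hl : ∀ ξ v, ∀ ε > 0, ∀ᶠ n in atTop, pp n ξ (v + μ n (xx n ξ)) ∈ Win δ n →
      |e n (pp n ξ (v + μ n (xx n ξ)))| ≤ m v + ε) :
    ∀ ε > 0, ∀ᶠ n in atTop, ∫ ξ, ∫ v, (Win δ n).indicator (fun A => ‖wt n A‖ * e n A) (pp n ξ v) ≤
      (1 + δ) * (∫ ξ : ℝ, Real.exp (-(1 / 16) * ξ ^ 2)) * (∫ v, m v) + ε := by
  set G : ℝ → ℝ → ℝ → ℝ := fun n ξ v =>
    (Win δ n).indicator (fun A => ‖wt n A‖ * e n A) (pp n ξ v) with hG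
  have mG : ∀ᶠ n in atTop, Measurable fun p : ℝ × ℝ => G n p.1 p.2 := by
    filter_upwards [hm] with n hn
    have : Measurable ((Win δ n).indicator (fun A => ‖wt n A‖ * e n A)) := by
      have e' : (Win δ n).indicator (fun A => ‖wt n A‖ * e n A) =
          fun A => ‖wt n A‖ * (Win δ n).indicator (e n) A := funext fun A => indicator_mul_right _ _ _
      rw [e']
      exact (cont_wt n).norm.measurable.mul hn
    exact this.comp (cont_pp n).measurable
  set g : ℝ → ℝ := fun ξ => (1 + δ) * Real.exp (-(1 / 16) * ξ ^ 2) with hg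
  have g0 : ∀ ξ, 0 < g ξ := fun ξ => by positivity
  have bG : ∀ᶠ n in atTop, ∀ ξ v, ‖G n ξ (v + μ n (xx n ξ))‖ ≤ g ξ * (C * (1 + v ^ 2)⁻¹) := by
    filter_upwards [hb, eventually_gt_atTop 0] with n hn n0 ξ v
    simp only [hG]
    by_cases hp : pp n ξ (v + μ n (xx n ξ)) ∈ Win δ n
    · rw [indicator_of_mem hp, norm_mul, norm_norm]
      refine mul_le_mul (norm_wt_pp' n0 hδ hp) ?_ (norm_nonneg _) (g0 ξ).le
      simpa using hn _ hp
    · rw [indicator_of_notMem hp, norm_zero]; positivity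
  have sh : ∀ n ξ, ∫ v, G n ξ (v + μ n (xx n ξ)) = ∫ v, G n ξ v := fun n ξ =>
    integral_add_right_eq_self (G n ξ) _
  have ic := integrable_inv_one_add_sq.const_mul C
  have inner : ∀ ξ, ∀ ε > 0, ∀ᶠ n in atTop, ‖(∫ v, G n ξ v) - 0‖ ≤ g ξ * (∫ v, m v) + ε := by
    intro ξ ε hε
    have := lim_int (μ := volume) (fun n v => G n ξ (v + μ n (xx n ξ))) (fun _ => 0)
      (fun v => g ξ * (C * (1 + v ^ 2)⁻¹)) (fun v => g ξ * m v)
      (mG.mono fun n hn => (hn.comp (f := fun v : ℝ => (ξ, v + μ n (xx n ξ)))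
        (by fun_prop)).aestronglyMeasurable)
      (bG.mono fun n hn => hn ξ) (ic.const_mul _) (integrable_zero _ _ _) (im.const_mul _)
      (fun v => mul_nonneg (g0 ξ).le (m0 v))
      (fun v η hη => by
        filter_upwards [hl ξ v (η / g ξ) (div_pos hη (g0 ξ)), eventually_gt_atTop 0] with n hn n0
        simp only [hG, sub_zero]
        by_cases hp : pp n ξ (v + μ n (xx n ξ)) ∈ Win δ n
        · rw [indicator_of_mem hp, norm_mul, norm_norm]
          calc _ ≤ g ξ * (m v + η / g ξ) :=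
                mul_le_mul (norm_wt_pp' n0 hδ hp) (hn hp) (abs_nonneg _) (g0 ξ).le
            _ = _ := by have := (g0 ξ).ne'; field_simp
        · rw [indicator_of_notMem hp, norm_zero]
          have := mul_nonneg (g0 ξ).le (m0 v)
          linarith) ε hε
    filter_upwards [this] with n hn
    rwa [sh, integral_zero, integral_const_mul] at hn
  intro ε hε
  have := lim_int (μ := volume) (fun n ξ => ∫ v, G n ξ v) (fun _ => 0)
    (fun ξ => g ξ * ∫ v : ℝ, C * (1 + v ^ 2)⁻¹) (fun ξ => g ξ * ∫ v, m v)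
    (mG.mono fun n hn => (hn.stronglyMeasurable.integral_prod_right' (ν := volume)).aestronglyMeasurable)
    (bG.mono fun n hn ξ => by
      rw [← sh, ← integral_const_mul]
      exact norm_integral_le_of_norm_le (ic.const_mul _) (ae_of_all _ (hn ξ)))
    ((ig.const_mul _).mul_const _) (integrable_zero _ _ _) ((ig.const_mul _).mul_const _)
    (fun ξ => mul_nonneg (g0 ξ).le (integral_nonneg m0)) inner ε hε
  filter_upwards [this] with n hn
  rw [integral_zero, sub_zero, integral_mul_const, integral_const_mul] at hn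
  exact (le_abs_self _).trans hn

end Crest.Agent.N250.Sw

end
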