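import Crest.Agent.N250.Sw.B

/-!
# Row 250 (helper5): the window form of the Stokes argument, part C (the core theorem)
-/

set_option autoImplicit false
open MeasureTheory Set Filter Topology Complex
open scoped Interval

noncomputable section

namespace Crest.Agent.N250.Sw

theorem isCompact_Win {δ n : ℝ} : IsCompact (Win δ n) := by
  refine Metric.isCompact_of_isClosed_isBounded (isClosed_Win δ n)
    ((Metric.isBounded_closedBall (x := (n : ℂ)) (r := 2 * (δ * n))).subset fun A hA => ?_)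
  rw [mem_closedBall_iff_norm]
  have := Complex.norm_le_abs_re_add_abs_im (A - n)
  simp only [sub_re, ofReal_re, sub_im, ofReal_im, sub_zero] at this
  linarith [hA.1, hA.2]

theorem meas_ind {E : Type*} [NormedAddCommGroup E] [MeasurableSpace E] [BorelSpace E] {δ n : ℝ}
    {F : ℂ → E} (h : ContinuousOn F (Win δ n)) : Measurable ((Win δ n).indicator F) := by
  classical
  exact ContinuousOn.measurable_piecewise h continuousOn_const (isClosed_Win δ n).measurableSet

theorem intg_mul {E : Type*} [NormedRing E] [MeasurableSpace E] [BorelSpace E]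
    [SecondCountableTopology E] {δ n K : ℝ} (hn : 0 < n) {w F : ℂ → E} (hw : Continuous w)
    (hm : Measurable ((Win δ n).indicator F)) (hK : ∀ A ∈ Win δ n, ‖F A‖ ≤ K) :
    Integrable (fun p : ℝ × ℝ => (Win δ n).indicator (fun A => w A * F A) (pp n p.1 p.2))
      (volume.prod volume) := by
  obtain ⟨B, hB⟩ := (isCompact_Win (δ := δ) (n := n)).exists_bound_of_continuousOn hw.continuousOn
  rw [← Measure.volume_eq_prod]
  refine intg_win (K := B * K) hn ?_ fun A hA => (norm_mul_le _ _).trans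
    (mul_le_mul (hB A hA) (hK A hA) (norm_nonneg _) ((norm_nonneg _).trans (hB A hA)))
  have e : (Win δ n).indicator (fun A => w A * F A) =
      fun A => w A * (Win δ n).indicator F A := funext fun A => indicator_mul_right _ _ _
  rw [e]
  exact ((hw.measurable.mul hm).comp (cont_pp n).measurable).aestronglyMeasurable

theorem inv_le_one' (C t : ℝ) (C0 : 0 ≤ C) : C * (1 + t ^ 2)⁻¹ ≤ C :=
  mul_le_of_le_one_right C0 (inv_le_one_of_one_le₀ (by nlinarith [sq_nonneg t]))

theorem mass_le {δ n : ℝ} (hn : 0 < n) (hδ : 0 < δ) :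
    ∫ p : ℝ × ℝ, (Win δ n).indicator (fun A => ‖wt n A‖ * 1) (pp n p.1 p.2) ∂(volume.prod volume) ≤
      (1 + δ) * (∫ ξ : ℝ, Real.exp (-(1 / 16) * ξ ^ 2)) * (√(16 * Real.pi) * √n) := by
  have i2 : Integrable fun v : ℝ => Real.exp (-(1 / (16 * n)) * v ^ 2) :=
    integrable_exp_neg_mul_sq (by positivity)
  have e := integral_prod_mul (μ := volume) (ν := volume)
    (fun ξ : ℝ => (1 + δ) * Real.exp (-(1 / 16) * ξ ^ 2)) (fun v : ℝ => Real.exp (-(1 / (16 * n)) * v ^ 2))
  rw [integral_const_mul, integral_gaussian (1 / (16 * n))] at e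
  have e2 : √(Real.pi / (1 / (16 * n))) = √(16 * Real.pi) * √n := by
    rw [← Real.sqrt_mul (by positivity)]; congr 1; field_simp
  rw [← e2, ← e]
  refine integral_mono_of_nonneg (ae_of_all _ fun p => indicator_nonneg (fun A _ => by positivity) _)
    ((ig.const_mul _).mul_prod i2) (ae_of_all _ fun p => ?_)
  by_cases hp : pp n p.1 p.2 ∈ Win δ n
  · simp only [indicator_of_mem hp, mul_one, mul_assoc]
    exact norm_wt_pp hn hp
  · simp only [indicator_of_notMem hp]; positivity

theorem t_bdry {δ : ℝ} (hδ : 0 < δ) (K : ℝ) :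
    Tendsto (fun n : ℝ => K * (n * Real.exp (-(δ ^ 2 / 32 * n)))) atTop (𝓝 0) := by
  have d : 0 < δ ^ 2 / 32 := by positivity
  have h := (Real.tendsto_pow_mul_exp_neg_atTop_nhds_zero 1).comp
    (tendsto_id.const_mul_atTop d)
  have := h.const_mul (K / (δ ^ 2 / 32))
  rw [mul_zero] at this
  refine this.congr fun n => ?_
  simp only [Function.comp, id, pow_one]
  field_simp

/-- THE CORE: Stokes on windows -/
theorem core {κ : Type*} [Fintype κ] {δ C : ℝ} (hδ : 0 < δ) (C0 : 0 ≤ C) {c : ℂ} (hc : c ≠ 0)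
    (H T : ℝ → ℂ → ℂ) (F : κ → ℝ → ℂ → ℂ) (L : κ → ℝ → ℂ) (γ : κ → ℝ)
    (e : κ → ℝ → ℂ → ℝ) (μ : κ → ℝ → ℝ → ℝ) (m : κ → ℝ → ℝ) (b : ℝ → ℝ)
    (hH : ∀ᶠ n in atTop, ∀ A ∈ Win δ n, DifferentiableAt ℝ (H n) A ∧
      I * fderiv ℝ (H n) A 1 - fderiv ℝ (H n) A I =
        c * exp (-(rho n A : ℂ)) * T n A * (I - (A.im / (4 * n) : ℝ)))
    (hT : ∀ᶠ n in atTop, ContinuousOn (T n) (Win δ n))
    (hb : ∀ᶠ n in atTop, ∀ A ∈ Win δ n, (|A.re - n| = δ * n ∨ |A.im| = δ * n) →
      ‖H n A‖ ≤ Real.exp (δ ^ 2 * n / 32) * Real.exp (-rho n A))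
    (mF : ∀ j, ∀ᶠ n in atTop, Measurable ((Win δ n).indicator (F j n)))
    (bF : ∀ j, ∀ᶠ n in atTop, ∀ A ∈ Win δ n, ‖F j n A‖ ≤ C * (1 + (A.im + γ j * √A.re) ^ 2)⁻¹)
    (lF : ∀ j ξ v, Tendsto (fun n => F j n (pg (γ j) n ξ v)) atTop (𝓝 (L j v)))
    (im : ∀ j, Integrable (m j)) (m0 : ∀ j v, 0 ≤ m j v)
    (me : ∀ j, ∀ᶠ n in atTop, Measurable ((Win δ n).indicator (e j n)))
    (be : ∀ j, ∀ᶠ n in atTop, ∀ A ∈ Win δ n, |e j n A| ≤ C * (1 + (A.im - μ j n A.re) ^ 2)⁻¹)
    (le : ∀ j ξ v, ∀ ε > 0, ∀ᶠ n in atTop, pp n ξ (v + μ j n (xx n ξ)) ∈ Win δ n →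
      |e j n (pp n ξ (v + μ j n (xx n ξ)))| ≤ m j v + ε)
    (tb : Tendsto b atTop (𝓝 0))
    (dec : ∀ᶠ n in atTop, ∀ A ∈ Win δ n,
      ‖T n A - ∑ j, F j n A‖ ≤ ∑ j, e j n A + b n * (√n)⁻¹) :
    ‖∑ j with γ j = 0, ∫ v : ℝ, exp (I * v) * L j v‖ ≤ (1 + δ) * ∑ j, ∫ v, m j v := by
  classical
  set G0 : ℝ := ∫ ξ : ℝ, Real.exp (-(1 / 16) * ξ ^ 2) with hG0
  have G0p : 0 < G0 := by rw [hG0, integral_gaussian]; positivity
  set P : ℝ → (ℂ → ℂ) → ℂ := fun n f => ∫ ξ, ∫ v, (Win δ n).indicator f (pp n ξ v) with hP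
  set Q : ℝ → (ℂ → ℝ) → ℝ := fun n f => ∫ ξ, ∫ v, (Win δ n).indicator f (pp n ξ v) with hQ
  set a : κ → ℂ := fun j => (∫ ξ, lw (γ j) ξ) * ∫ v : ℝ, exp (I * v) * L j v with ha
  have c0 : 0 < ‖c‖ := norm_pos_iff.2 hc
  -- Stokes
  have s1 : ∀ᶠ n in atTop, ‖P n (fun A => wt n A * T n A)‖ ≤
      8 * δ / ‖c‖ * (n * Real.exp (-(δ ^ 2 / 32 * n))) := by
    filter_upwards [hH, hT, hb, eventually_ge_atTop 1] with n h1 h2 h3 n1
    have n0 : 0 < n := by linarith
    have := stokes (H := H n) (D := fun A => c * exp (-(rho n A : ℂ)) * T n A) n0 hδ h1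
      (ContinuousOn.mul (by have := cont_rho n; fun_prop) h2) h3
    have e1 : ∀ A, psi n A * (c * exp (-(rho n A : ℂ)) * T n A * (I - (A.im / (4 * n) : ℝ))) =
        c * (wt n A * T n A) := fun A => by rw [wt]; ring
    simp only [e1, intervalIntegral.integral_const_mul] at this
    rw [resc n0 hδ (fun A => wt n A * T n A), norm_mul, norm_smul, Real.norm_eq_abs,
      abs_of_nonneg (Real.sqrt_nonneg n), ← Real.exp_add] at this
    have r1 : 1 ≤ √n := Real.one_le_sqrt.2 n1
    have e2 : δ ^ 2 * n / 32 + -(δ ^ 2 * n / 16) = -(δ ^ 2 / 32 * n) := by ring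
    rw [e2] at this
    rw [div_mul_eq_mul_div, le_div_iff₀ c0]
    have h4 : ‖P n (fun A => wt n A * T n A)‖ ≤ √n * ‖P n (fun A => wt n A * T n A)‖ :=
      le_mul_of_one_le_left (norm_nonneg _) r1
    have := mul_le_mul_of_nonneg_left h4 c0.le
    simp only [hP] at *
    nlinarith
  -- decomposition
  have s2 : ∀ᶠ n in atTop, ‖∑ j, P n (fun A => wt n A * F j n A)‖ ≤
      ‖P n (fun A => wt n A * T n A)‖ + ∑ j, Q n (fun A => ‖wt n A‖ * e j n A) +
        |b n| * ((1 + δ) * G0 * √(16 * Real.pi)) := by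
    filter_upwards [hT, eventually_all.2 mF, eventually_all.2 bF, eventually_all.2 me,
      eventually_all.2 be, dec, eventually_gt_atTop 0] with n h1 h2 h3 h4 h5 h6 n0
    have r0 : 0 < √n := Real.sqrt_pos.2 n0
    obtain ⟨B, hB⟩ := (isCompact_Win (δ := δ) (n := n)).exists_bound_of_continuousOn h1
    have iT := intg_mul n0 (cont_wt n) (meas_ind h1) hB
    have iF := fun j => intg_mul n0 (cont_wt n) (h2 j) fun A hA =>
      (h3 j A hA).trans (inv_le_one' C _ C0)
    have ie := fun j => intg_mul n0 (cont_wt n).norm (h4 j) fun A hA =>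
      (h5 j A hA).trans (inv_le_one' C _ C0)
    have i1 := intg_mul (δ := δ) (K := 1) (F := fun _ => (1 : ℝ)) n0 (cont_wt n).norm
      (meas_ind continuousOn_const) fun A _ => by simp
    simp only [hP, hQ]
    simp only [← integral_prod _ iT, ← fun j => integral_prod _ (iF j),
      ← fun j => integral_prod _ (ie j)]
    rw [← integral_finsetSum _ fun j _ => iF j, ← integral_finsetSum _ fun j _ => ie j]
    have iS := integrable_finsetSum Finset.univ fun j _ => iF j
    have iE := integrable_finsetSum Finset.univ fun j _ => ie j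
    have key := norm_integral_le_of_norm_le (iE.add (i1.const_mul (|b n| * (√n)⁻¹)))
      (f := fun p : ℝ × ℝ => (Win δ n).indicator (fun A => wt n A * T n A) (pp n p.1 p.2) -
        ∑ j, (Win δ n).indicator (fun A => wt n A * F j n A) (pp n p.1 p.2))
      (ae_of_all _ fun p => by
        by_cases hp : pp n p.1 p.2 ∈ Win δ n
        · simp only [Pi.add_apply, indicator_of_mem hp]
          rw [← Finset.mul_sum, ← Finset.mul_sum, ← mul_sub, norm_mul, mul_one, mul_comm _ ‖wt n _‖,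
            ← mul_add]
          refine mul_le_mul_of_nonneg_left ((h6 _ hp).trans ?_) (norm_nonneg _)
          have := mul_le_mul_of_nonneg_right (le_abs_self (b n)) (inv_pos.2 r0).le
          linarith
        · simp [indicator_of_notMem hp])
    rw [integral_sub iT iS, integral_add' iE (i1.const_mul _), integral_const_mul] at key
    have h7 := mul_le_mul_of_nonneg_left (mass_le n0 hδ)
      (mul_nonneg (abs_nonneg (b n)) (inv_pos.2 r0).le)
    have e3 : |b n| * (√n)⁻¹ * ((1 + δ) * G0 * (√(16 * Real.pi) * √n)) =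
        |b n| * ((1 + δ) * G0 * √(16 * Real.pi)) := by field_simp
    rw [← hG0, e3] at h7
    have h8 := norm_sub_norm_le
      (∫ p : ℝ × ℝ, ∑ j, (Win δ n).indicator (fun A => wt n A * F j n A) (pp n p.1 p.2)
        ∂(volume.prod volume))
      (∫ p : ℝ × ℝ, (Win δ n).indicator (fun A => wt n A * T n A) (pp n p.1 p.2) ∂(volume.prod volume))
    rw [norm_sub_rev] at h8
    linarith
  have s3 : Tendsto (fun n => ∑ j, ‖P n (fun A => wt n A * F j n A) * exp (I * γ j * √n) - a j‖)
      atTop (𝓝 0) := by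
    have := tendsto_finsetSum (Finset.univ : Finset κ) fun j _ =>
      tendsto_iff_norm_sub_tendsto_zero.1 (main_lim hδ (F j) (L j) (mF j) (bF j) (lF j))
    simpa using this
  have fin : ∀ ε > 0, ‖∑ j with γ j = 0, a j‖ ≤ (1 + δ) * G0 * (∑ j, ∫ v, m j v) + ε := by
    intro ε hε
    refine cesaro a γ _ ?_
    have k0 : (0 : ℝ) < Fintype.card κ + 1 := by positivity
    have s4 := eventually_all.2 fun j => err_lim hδ C0 (e j) (μ j) (m j) (im j) (m0 j) (me j) (be j)
      (le j) (ε / 4 / (Fintype.card κ + 1)) (by positivity)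
    have s5 : Tendsto (fun n => |b n| * ((1 + δ) * G0 * √(16 * Real.pi))) atTop (𝓝 0) := by
      simpa using tb.abs.mul_const ((1 + δ) * G0 * √(16 * Real.pi))
    have e4 : 0 < ε / 4 := by positivity
    have all : ∀ᶠ n in atTop, ‖∑ j, a j * exp (-(I * γ j * √n))‖ ≤
        (1 + δ) * G0 * (∑ j, ∫ v, m j v) + ε := by
      filter_upwards [s1, s2, s3.eventually (gt_mem_nhds e4), s4, s5.eventually (gt_mem_nhds e4),
        (t_bdry hδ (8 * δ / ‖c‖)).eventually (gt_mem_nhds e4)] with n h1 h2 h3 h4 h5 h6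
      have h7 : ∑ j, Q n (fun A => ‖wt n A‖ * e j n A) ≤
          (1 + δ) * G0 * (∑ j, ∫ v, m j v) + ε / 4 := by
        refine (Finset.sum_le_sum fun j _ => h4 j).trans ?_
        rw [Finset.sum_add_distrib, ← Finset.mul_sum, Finset.sum_const, Finset.card_univ,
          nsmul_eq_mul]
        have : (Fintype.card κ : ℝ) * (ε / 4 / (Fintype.card κ + 1)) ≤ ε / 4 := by
          rw [← mul_div_assoc, div_le_iff₀ k0]; nlinarith
        linarith
      have h8 : ‖∑ j, a j * exp (-(I * γ j * √n)) - ∑ j, P n (fun A => wt n A * F j n A)‖ ≤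
          ∑ j, ‖P n (fun A => wt n A * F j n A) * exp (I * γ j * √n) - a j‖ := by
        rw [← Finset.sum_sub_distrib]
        refine (norm_sum_le _ _).trans (Finset.sum_le_sum fun j _ => le_of_eq ?_)
        have n1 : ‖exp (-(I * γ j * √n))‖ = 1 := by rw [Complex.norm_exp]; simp
        have : a j * exp (-(I * γ j * √n)) - P n (fun A => wt n A * F j n A) =
            -((P n (fun A => wt n A * F j n A) * exp (I * γ j * √n) - a j) *
              exp (-(I * γ j * √n))) := by
          rw [sub_mul, mul_assoc (P n _), ← Complex.exp_add, add_neg_cancel, Complex.exp_zero]; ring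
        rw [this, norm_neg, norm_mul, n1, mul_one]
      have h9 := norm_sub_norm_le (∑ j, a j * exp (-(I * γ j * √n)))
        (∑ j, P n (fun A => wt n A * F j n A))
      linarith
    have := (tendsto_pow_atTop (two_ne_zero (α := ℕ))).eventually all
    filter_upwards [this, eventually_ge_atTop 0] with s h s0
    rwa [Real.sqrt_sq s0] at h
  have e5 : ∑ j with γ j = 0, a j =
      (G0 * I) * ∑ j with γ j = 0, ∫ v : ℝ, exp (I * v) * L j v := by
    rw [Finset.mul_sum]
    refine Finset.sum_congr rfl fun j hj => ?_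
    have : γ j = 0 := (Finset.mem_filter.1 hj).2
    simp only [ha, this, lw_zero]
    rw [integral_mul_const, integral_complex_ofReal]
  have e6 := le_of_forall_pos_le_add fin
  rw [e5, norm_mul, norm_mul, norm_I, mul_one, Complex.norm_real, Real.norm_eq_abs,
    abs_of_pos G0p] at e6
  refine le_of_mul_le_mul_left ?_ G0p
  linarith

end Crest.Agent.N250.Sw

end
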